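import Vale.Agent.Lib.P192.Deficiency

namespace Vale.Agent.Results.P192.Deficiency

/-- A group presented by `n` generators and fewer than `n` relators has an element of
infinite order; so a periodic group has no presentation with fewer relators than generators. -/
theorem result (n : ℕ) (rels : Set (FreeGroup (Fin n))) (hfin : rels.Finite)
    (hlt : rels.ncard < n) : ∃ g : PresentedGroup rels, ¬ IsOfFinOrder g :=
  Vale.Agent.Lib.P192.exists_not_isOfFinOrder rels hfin hlt

end Vale.Agent.Results.P192.Deficiency
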