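import Vale.Agent.Lib.P192.ThreeInv

namespace Vale.Agent.Results.P192.ThreeInvolutions

universe u

/-- If an infinite finitely presented periodic group exists, then there is one that is
generated by three elements of square one. -/
theorem result :
    (∃ (G : Type u) (_ : Group G),
        Group.IsFinitelyPresented G ∧ IsMulTorsion G ∧ Infinite G) →
    ∃ (K : Type u) (_ : Group K),
        Group.IsFinitelyPresented K ∧ IsMulTorsion K ∧ Infinite K ∧
        ∃ a b c : K, a ^ 2 = 1 ∧ b ^ 2 = 1 ∧ c ^ 2 = 1 ∧ Subgroup.closure {a, b, c} = ⊤ := by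
  rintro ⟨G, _, hfp, htor, hinf⟩
  exact Vale.Agent.Lib.P192.exists_three_involutions_of_exists hfp htor hinf

end Vale.Agent.Results.P192.ThreeInvolutions
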