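import Vale.Agent.Lib.P192.TwoGen

namespace Vale.Agent.Results.P192.TwoGenerators

universe u

/-- If an infinite finitely presented periodic group exists, then there is one that is
generated by two elements. -/
theorem result :
    (∃ (G : Type u) (_ : Group G),
        Group.IsFinitelyPresented G ∧ IsMulTorsion G ∧ Infinite G) →
    ∃ (K : Type u) (_ : Group K),
        Group.IsFinitelyPresented K ∧ IsMulTorsion K ∧ Infinite K ∧
        ∃ a b : K, Subgroup.closure {a, b} = ⊤ := by
  rintro ⟨G, _, hfp, htor, hinf⟩
  exact Vale.Agent.Lib.P192.exists_two_generated hfp htor hinf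

end Vale.Agent.Results.P192.TwoGenerators
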